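import Vale.Agent.P231.Bd3.B5
import Vale.Agent.P231.Bd3.B6

/-! The metric Blaschke conjecture, given the (published) weak Blaschke theorem. -/

set_option maxSynthPendingDepth 3

open Bundle Manifold Set
open scoped ContDiff Manifold ENNReal

namespace Vale.Agent.Results.P231.MetricBlaschke

open Vale.Agent.P231.Blaschke

/-- The weak Blaschke theorem (Weinstein, C. T. Yang, Reznikov): a Blaschke manifold `M` of
dimension `N + 1` whose cut points have multiplicity `l` (the least `l` such that all kernels have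
dimension at most `l`) has exactly the volume of its model. -/
def WeakBlaschkeTheorem.{u, v} : Prop :=
  ∀ (E : Type u) [NormedAddCommGroup E] [NormedSpace ℝ E] [FiniteDimensional ℝ E]
    (M : Type v) [MetricSpace M] [ChartedSpace E M] [IsManifold 𝓘(ℝ, E) ∞ M]
    [RiemannianBundle (fun x : M => TangentSpace 𝓘(ℝ, E) x)]
    [IsContMDiffRiemannianBundle 𝓘(ℝ, E) ∞ E (fun x : M => TangentSpace 𝓘(ℝ, E) x)]
    [IsRiemannianManifold 𝓘(ℝ, E) M] [CompactSpace M] [ConnectedSpace M]
    [MeasurableSpace M] [BorelSpace M] (e : ∀ x : M, TangentSpace 𝓘(ℝ, E) x → M) (N l : ℕ),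
    Module.finrank ℝ E = N + 1 → IsExpMap e → InjGeDiam e → IsLeast {k | MultLE e k} l →
      riemannianVolume (N + 1) M univ =
        ENNReal.ofReal (modelVolume N l (Metric.diam (univ : Set M)))

/-- The metric Blaschke conjecture follows from the weak Blaschke theorem: every Blaschke manifold
is a symmetric space and is two-point homogeneous. -/
theorem result.{u, v} (hV : WeakBlaschkeTheorem.{u, v})
    (E : Type u) [NormedAddCommGroup E] [NormedSpace ℝ E] [FiniteDimensional ℝ E]
    (M : Type v) [MetricSpace M] [ChartedSpace E M] [IsManifold 𝓘(ℝ, E) ∞ M]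
    [RiemannianBundle (fun x : M => TangentSpace 𝓘(ℝ, E) x)]
    [IsContMDiffRiemannianBundle 𝓘(ℝ, E) ∞ E (fun x : M => TangentSpace 𝓘(ℝ, E) x)]
    [IsRiemannianManifold 𝓘(ℝ, E) M] [CompactSpace M] [ConnectedSpace M]
    (hE : 1 ≤ Module.finrank ℝ E) :
    ∃ e : ∀ x : M, TangentSpace 𝓘(ℝ, E) x → M, IsExpMap e ∧
      (∀ e' : ∀ x : M, TangentSpace 𝓘(ℝ, E) x → M, IsExpMap e' → e' = e) ∧
      (InjGeDiam e → GeodesicSymmetric e ∧ TwoPointHomogeneous M) := by
  obtain ⟨N, hN⟩ : ∃ N, Module.finrank ℝ E = N + 1 := ⟨Module.finrank ℝ E - 1, by omega⟩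
  letI : MeasurableSpace M := borel M
  haveI : BorelSpace M := ⟨rfl⟩
  obtain ⟨e, he, hu, -⟩ := Vale.Agent.P234.main_unconditional (E := E) (M := M)
  have he' : IsExpMap e := (Vale.Agent.P231.isExpMap_iff e).2 he
  refine ⟨e, he', fun e' he' => hu e' ((Vale.Agent.P231.isExpMap_iff e').1 he'), fun hinj => ?_⟩
  have hne : {k | MultLE e k}.Nonempty := by
    refine ⟨N + 1, ?_⟩
    intro x v _ w hw
    exfalso
    have h1 : Fintype.card (Fin (N + 1 + 1)) ≤ Module.finrank ℝ E :=
      LinearIndependent.fintype_card_le_finrank (M := E) hw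
    simp only [Fintype.card_fin] at h1
    omega
  obtain ⟨l, hl⟩ : ∃ l, IsLeast {k | MultLE e k} l := by
    classical
    exact ⟨Nat.find hne, Nat.find_spec hne, fun k hk => Nat.find_min' hne hk⟩
  have h := hV E M e N l hN he' hinj hl
  exact (Vale.Agent.P231.main_theorem he hinj hN hl.1).2 h.le

end Vale.Agent.Results.P231.MetricBlaschke
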