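import Vale.Agent.P231.Bd3.B5
import Vale.Agent.P231.Bd3.B6

/-! The sharp volume inequality for Blaschke manifolds and its equality case. -/

set_option maxSynthPendingDepth 3

open Bundle Manifold Set
open scoped ContDiff Manifold ENNReal

namespace Vale.Agent.Results.P231.VolumeRigidity

open Vale.Agent.P231.Blaschke

/-- Let `M` be a compact connected Riemannian manifold of dimension `N + 1 ≥ 1`. Its exponential
map exists and is unique. If `inj M ≥ diam M` (so `M` is a Blaschke manifold) and the cut points
have multiplicity at most `l`, then the volume of `M` is at least the volume of the compact rank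
one symmetric space with the same dimension, diameter and multiplicity `l`; and if the volume is
not larger than that of the model then `M` is a symmetric space and is two-point homogeneous. -/
theorem result {E : Type*} [NormedAddCommGroup E] [NormedSpace ℝ E] [FiniteDimensional ℝ E]
    {M : Type*} [MetricSpace M] [ChartedSpace E M] [IsManifold 𝓘(ℝ, E) ∞ M]
    [RiemannianBundle (fun x : M => TangentSpace 𝓘(ℝ, E) x)]
    [IsContMDiffRiemannianBundle 𝓘(ℝ, E) ∞ E (fun x : M => TangentSpace 𝓘(ℝ, E) x)]
    [IsRiemannianManifold 𝓘(ℝ, E) M] [CompactSpace M] [ConnectedSpace M]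
    [MeasurableSpace M] [BorelSpace M] {N : ℕ} (hN : Module.finrank ℝ E = N + 1) :
    ∃ e : ∀ x : M, TangentSpace 𝓘(ℝ, E) x → M, IsExpMap e ∧
      (∀ e' : ∀ x : M, TangentSpace 𝓘(ℝ, E) x → M, IsExpMap e' → e' = e) ∧
      (InjGeDiam e → ∀ l : ℕ, MultLE e l →
        ENNReal.ofReal (modelVolume N l (Metric.diam (univ : Set M))) ≤
            riemannianVolume (N + 1) M univ ∧
          (riemannianVolume (N + 1) M univ ≤
              ENNReal.ofReal (modelVolume N l (Metric.diam (univ : Set M))) →
            GeodesicSymmetric e ∧ TwoPointHomogeneous M)) := by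
  obtain ⟨e, he, hu, -⟩ := Vale.Agent.P234.main_unconditional (E := E) (M := M)
  refine ⟨e, (Vale.Agent.P231.isExpMap_iff e).2 he,
    fun e' he' => hu e' ((Vale.Agent.P231.isExpMap_iff e').1 he'), fun hinj l hl => ?_⟩
  exact Vale.Agent.P231.main_theorem he hinj hN hl

end Vale.Agent.Results.P231.VolumeRigidity
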